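import Vale.Agent.P329.R3.H96.Defs
import Vale.Agent.P329.R3.H96.Fin
import Vale.Agent.P329.H647.Fin
import Vale.Agent.P329.H647.Prod
import Vale.Agent.P329.R2.H162.Str
import Vale.Agent.P329.H697.Main2
import Vale.Agent.P329.H697.New3
import Vale.Agent.P329.H697.Tw3
import Vale.Agent.P329.H697.Defs4
import Vale.Agent.P329.H697.Defs6
import Vale.Agent.P329.H697.OneH

namespace Vale.Agent.Results.P329.InvolutionThree

open Vale.Agent.P329 Vale.Agent.P329.H647 Vale.Agent.P329.H112 Vale.Agent.P329.H96
  Vale.Agent.P329.H697

theorem step_one {α H : Type} [Finite α] [Group H] [Finite H] (f : α → H)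
    (h : DividesProduct H ∨ ClassTwoByTwo H ∨ CentralSquares H ∨
      CyclicLetters f ∨ OutsideLetters f ∨ OddCoset f) :
    MapLe 1 f := by
  intro S
  rcases h with h | h | h | h | ⟨N, A, hN, hc, hA, hab, hf⟩ | h
  · have h1 : SH 1 (⋃ g : H, ⋃ _ : g ∈ S, {w : List α | (w.map f).prod = g}) :=
      SH.iUnion fun g => SH.iUnion_prop fun _ => H211.div_known h f g
    refine Eq.mp (congrArg (SH 1) ?_) h1
    ext w
    simp
  · have h1 : SH 1 (⋃ g : H, ⋃ _ : g ∈ S, {w : List α | (w.map f).prod = g}) :=
      SH.iUnion fun g => SH.iUnion_prop fun _ => class_two_known h f g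
    refine Eq.mp (congrArg (SH 1) ?_) h1
    ext w
    simp
  · have h1 : SH 1 (⋃ g : H, ⋃ _ : g ∈ S, {w : List α | (w.map f).prod = g}) :=
      SH.iUnion fun g => SH.iUnion_prop fun _ => H672.central_known h f g
    refine Eq.mp (congrArg (SH 1) ?_) h1
    ext w
    simp
  · have h1 : SH 1 (⋃ g : H, ⋃ _ : g ∈ S, {w : List α | (w.map f).prod = g}) :=
      SH.iUnion fun g => SH.iUnion_prop fun _ => H211.step_known h g
    refine Eq.mp (congrArg (SH 1) ?_) h1
    ext w
    simp
  · have h1 : SH 1 (⋃ g : H, ⋃ _ : g ∈ S, {w : List α | (w.map f).prod = g}) :=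
      SH.iUnion fun g => SH.iUnion_prop fun _ => Tw.twist_all N A hN hc hA hab f hf g
    refine Eq.mp (congrArg (SH 1) ?_) h1
    ext w
    simp
  · have h1 : SH 1 (⋃ g : H, ⋃ _ : g ∈ S, {w : List α | (w.map f).prod = g}) :=
      SH.iUnion fun g => SH.iUnion_prop fun _ => oddCoset_known f h g
    refine Eq.mp (congrArg (SH 1) ?_) h1
    ext w
    simp

/-- `ClassTwoByTwo H`: the group `H` has a subgroup `N` of index two such that the commutators of
the elements of `N` commute with all elements of `N` and have order dividing three.
`CentralSquares H`: the group `H` has a subgroup `N` which contains all squares of elements of `H`,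
such that the commutators of the elements of `N` commute with all elements of `H`.
(1) Every language recognised by a divisor `G` of a finite direct product of finite groups `H i`,
each of which is in the class `DividesProduct` or satisfies `ClassTwoByTwo` or `CentralSquares`,
has generalized star height at most one: all alphabets, all maps `f` of the letters to `G`, all
subsets `S` of `G`.
(2) Let `F` be a map of the letters to such a direct product; moreover a factor `H i` may be any
finite group if the coordinate `x ↦ F x i` of the map satisfies `CyclicLetters` (all values are in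
`A`, `g A`, `g⁻¹ A` for an abelian normal subgroup `A` and an element `g` of `H i`) or
`OutsideLetters` (each value is in `A` or outside `N`, for an abelian normal subgroup `A` and a
subgroup `N` of index two, the commutators of whose elements commute with all elements of `N`) or
`OddCoset` (all values are in one coset `g N` of a normal subgroup `N`, the commutators of whose
elements commute with all elements of `H i`, with `g ^ n` in `N` for an odd number `n`).
If `φ` is a map of the letters to a finite monoid such that the value under `φ` of each nonempty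
word with trivial value under `F` is aperiodic, then all languages recognised through `φ` have
generalized star height at most one.
(3) For each odd prime `p` some group of order `2 * p ^ 3` satisfies `CentralSquares`, is not in
the class `DividesProduct`, and for `p ≠ 3` it is not even a divisor of a finite direct product of
groups each of which is in the class `DividesProduct` or satisfies `ClassTwoByTwo`. -/
theorem result :
    (∀ (α : Type) [Finite α] (ι : Type) [Finite ι] (H : ι → Type)
      [∀ i, Group (H i)] [∀ i, Finite (H i)],
      (∀ i, DividesProduct (H i) ∨ ClassTwoByTwo (H i) ∨ CentralSquares (H i)) →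
      ∀ (D : Subgroup (∀ i, H i)) (G : Type) [Group G] (π : D →* G),
        Function.Surjective π → ∀ (f : α → G) (S : Set G),
          ∃ e : GRE α, e.height ≤ 1 ∧ e.lang = {w : List α | (w.map f).prod ∈ S}) ∧
    (∀ (α : Type) [Finite α] (ι : Type) [Finite ι] (H : ι → Type)
      [∀ i, Group (H i)] [∀ i, Finite (H i)] (F : α → ∀ i, H i),
      (∀ i, DividesProduct (H i) ∨ ClassTwoByTwo (H i) ∨ CentralSquares (H i) ∨
        CyclicLetters (fun x => F x i) ∨ OutsideLetters (fun x => F x i) ∨
        OddCoset fun x => F x i) →
      ∀ (M : Type) [Monoid M] [Finite M] (φ : α → M),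
        (∀ v : List α, v ≠ [] → (v.map F).prod = 1 →
          ∃ k, (v.map φ).prod ^ (k + 1) = (v.map φ).prod ^ k) →
          ∀ S : Set M, ∃ e : GRE α, e.height ≤ 1 ∧
            e.lang = {w : List α | (w.map φ).prod ∈ S}) ∧
    (∀ p : ℕ, p.Prime → p ≠ 2 → ∃ (G : Type) (_ : Group G), Nat.card G = 2 * p ^ 3 ∧
      CentralSquares G ∧ ¬ DividesProduct G ∧ (p ≠ 3 →
        ∀ (ι : Type) [Finite ι] (H : ι → Type) [∀ i, Group (H i)],
          (∀ i, DividesProduct (H i) ∨ ClassTwoByTwo (H i)) →
          ∀ (D : Subgroup (∀ i, H i)) (π : D →* G), ¬ Function.Surjective π)) := by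
  have key : ∀ (α : Type) [Finite α] (ι : Type) [Finite ι] (H : ι → Type)
      [∀ i, Group (H i)] [∀ i, Finite (H i)] (F : α → ∀ i, H i),
      (∀ i, DividesProduct (H i) ∨ ClassTwoByTwo (H i) ∨ CentralSquares (H i) ∨
        CyclicLetters (fun x => F x i) ∨ OutsideLetters (fun x => F x i) ∨
        OddCoset fun x => F x i) → MapLe 1 F := by
    intro α _ ι _ H _ _ F hF
    exact pi_all fun i => step_one (fun x => F x i) (hF i)
  refine ⟨?_, ?_, fun p hp h2 => ⟨Gp p, Gp.grp, Gp.card, Gp.central, Gp.not_dp hp h2,
    fun h3 ι _ H _ hH D π => Gp.not_divides hp h2 h3 ι H hH D π⟩⟩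
  · intro α _ ι _ H _ _ hH D G _ π hπ f S
    choose F hF using fun a => hπ (f a)
    have h1 : MapLe 1 (fun a => ((F a : D) : ∀ i, H i)) :=
      key α ι H _ fun i => (hH i).imp_right fun h => h.imp_right Or.inl
    have h2 := h1 {g | ∃ d : D, (d : ∀ i, H i) = g ∧ π d ∈ S}
    have h3 : ∀ w : List α, (w.map fun a => ((F a : D) : ∀ i, H i)).prod =
        (((w.map F).prod : D) : ∀ i, H i) := by
      intro w
      induction w with
      | nil => rfl
      | cons a w ih => rw [List.map_cons, List.prod_cons, ih, List.map_cons, List.prod_cons,
          Subgroup.coe_mul]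
    have h4 : ∀ w : List α, π (w.map F).prod = (w.map f).prod := by
      intro w
      rw [map_list_prod, List.map_map]
      congr 1
      exact List.map_congr_left fun a _ => hF a
    refine Eq.mp (congrArg (SH 1) ?_) h2
    ext w
    constructor
    · rintro ⟨d, hd1, hd2⟩
      rw [h3] at hd1
      have h5 : d = (w.map F).prod := Subtype.ext hd1
      rw [h5, h4] at hd2
      exact hd2
    · intro hw
      refine ⟨(w.map F).prod, (h3 w).symm, ?_⟩
      rw [h4]; exact hw
  · intro α _ ι _ H _ _ F hF M _ _ φ hap S
    refine H162.Str.straubing F (key α ι H F hF) φ (fun v hv hid => hap v hv ?_) S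
    exact mul_eq_left.1 hid

end Vale.Agent.Results.P329.InvolutionThree
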