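import Vale.Agent.P329.H672.MarkRule

/-!
Generalized star height at most one on words with zones chosen by rules.
-/

namespace Vale.Agent.Results.P329.RecurrentZones

open Vale.Agent.P329

/-- `g` contains no `N`-th power of a nonempty word -/
def PowerFree {α : Type} (N : ℕ) (g : List α) : Prop :=
  ∀ z : List α, z ≠ [] → ¬ (List.replicate N z).flatten <:+: g

/-- `g` has no period of length at most `D` (`g` has period `d` if `g` without its first `d`
letters is an initial segment of `g`) -/
def NoPeriod {α : Type} (D : ℕ) (g : List α) : Prop :=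
  ∀ d : ℕ, 0 < d → d ≤ D → ¬ g.drop d <+: g

/-- every factor of length `a` of `g` occurs in every factor of length `b` of `g` -/
def Recurs {α : Type} (a b : ℕ) (g : List α) : Prop :=
  ∀ s f : List α, s <:+: g → s.length = a → f <:+: g → f.length = b → s <:+: f

/-- `g` is a zone for the rules `τ` and `τ'`: it is `P₀ P X Q` where `P` has length `b + b'`, `X`
has length `a'`, and `P₀` and `Q` have length at least `2 * (a' + 3 * b + b')`;
`τ` takes on all factors of length `b` of `g` one value `s`, a word of length `C` without `N`-th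
powers; `s` occurs at `C` places of `X`, all of them between `c + b` and `c + e`, of pairwise
distance at least `3 * b`; the first `c` letters of `X` have no period of length at most
`e + 2 * b`; and `τ'` takes the value `X` on the last `b'` letters of all initial segments of `P X`
which contain `P` and the first `c` letters of `X`. -/
def Zone {α : Type} (C N b c a' b' : ℕ) (τ τ' : List α → List α) (g : List α) : Prop :=
  ∃ (P₀ P X Q s : List α) (e : ℕ) (p : Fin C → ℕ), g = P₀ ++ P ++ X ++ Q ∧
    2 * (a' + 3 * b + b') ≤ P₀.length ∧ P.length = b + b' ∧ X.length = a' ∧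
    2 * (a' + 3 * b + b') ≤ Q.length ∧ s.length = C ∧ PowerFree N s ∧
    (∀ f : List α, f <:+: g → f.length = b → τ f = s) ∧
    (∀ i, c + b ≤ p i ∧ p i ≤ c + e ∧ s <+: X.drop (p i)) ∧
    (∀ i j, i < j → p i + 3 * b ≤ p j) ∧ NoPeriod (e + 2 * b) (X.take c) ∧
    (∀ (t : ℕ) (f : List α), c ≤ t → f <:+ P ++ X.take t → f.length = b' → τ' f = X)

/-- For all `n` and `N` there is `C` such that the following holds for all finite alphabets.
(1) Let `τ` and `τ'` be arbitrary maps from words to words, `C ≤ b`, and let `G` be a set of zones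
for `τ` and `τ'`. For every automaton with `n` states the accepted words in which every factor of
length `m` contains a word of `G` form a language of generalized star height at most one.
(2) For every function `R` there are `l` and `D`, which do not depend on the alphabet, such that
for every automaton with `n` states and every `m` the accepted words in which every factor of
length `m` contains a word `g` of length at least `l`, with a factor of length `C` without `N`-th
powers, without periods of length at most `D`, and with recurrence function at most `R`, form a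
language of generalized star height at most one.
(3) For every finite alphabet there is `K` such that for every automaton with `n` states, every
`b`, every `m` and every map `τ` from words to words the accepted words in which every factor of
length `m` contains a word `P X Q` with the following properties form a language of generalized
star height at most one: `X` has length `K * b` and no `N`-th power, `P` and `Q` have length at
least `10 * K * b`, and `τ` has the value `X` on all factors of length `b` of `P X Q`.
(4) There are finitely many types of zones such that every long word without `N`-th powers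
contains a zone of one of these types. -/
theorem result (n N : ℕ) : ∃ C : ℕ, 0 < C ∧
    (∀ (α : Type) [Finite α] (A : DFA α (Fin n)) (b c a' b' : ℕ) (τ τ' : List α → List α),
      C ≤ b → ∀ G : Set (List α), (∀ g ∈ G, Zone C N b c a' b' τ τ' g) → ∀ m : ℕ,
        ∃ e : GRE α, e.height ≤ 1 ∧ e.lang = {w : List α | w ∈ A.accepts ∧
          ∀ u : List α, u <:+: w → u.length = m → ∃ g ∈ G, g <:+: u}) ∧
    (∀ R : ℕ → ℕ, ∃ l D : ℕ, ∀ (α : Type) [Finite α] (A : DFA α (Fin n)) (m : ℕ),
      ∃ e : GRE α, e.height ≤ 1 ∧ e.lang = {w : List α | w ∈ A.accepts ∧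
        ∀ u : List α, u <:+: w → u.length = m → ∃ g : List α, g <:+: u ∧ l ≤ g.length ∧
          (∃ s : List α, s <:+: g ∧ s.length = C ∧ PowerFree N s) ∧ NoPeriod D g ∧
            ∀ a : ℕ, Recurs a (R a) g}) ∧
    (∀ (α : Type) [Finite α], ∃ K : ℕ, 0 < K ∧ ∀ (A : DFA α (Fin n)) (b : ℕ)
      (τ : List α → List α), 0 < b → ∀ m : ℕ, ∃ e : GRE α, e.height ≤ 1 ∧
        e.lang = {w : List α | w ∈ A.accepts ∧ ∀ u : List α, u <:+: w → u.length = m →
          ∃ P X Q : List α, P ++ X ++ Q <:+: u ∧ X.length = K * b ∧ PowerFree N X ∧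
            10 * (K * b) ≤ P.length ∧ 10 * (K * b) ≤ Q.length ∧
            ∀ f : List α, f <:+: P ++ X ++ Q → f.length = b → τ f = X}) ∧
    (∀ (α : Type) [Finite α], ∃ (S : Finset (ℕ × ℕ × ℕ × ℕ))
      (ρ ρ' : ℕ × ℕ × ℕ × ℕ → List α → List α) (K : ℕ), (∀ q ∈ S, C ≤ q.1) ∧
        ∀ w : List α, K ≤ w.length → PowerFree N w → ∃ q ∈ S, ∃ g : List α, g <:+: w ∧
          Zone C N q.1 q.2.1 q.2.2.1 q.2.2.2 (ρ q) (ρ' q) g) := by
  obtain ⟨C, hC0, hC⟩ := H672.regular_zones n N
  refine ⟨C, hC0, ?_, ?_, ?_, ?_⟩
  · intro α _ A b c a' b' τ τ' hb G hG m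
    exact hC α (fun L => SH 1 L) Slow.cls_SH A b c a' b' τ τ' hb G hG m
  · intro R
    obtain ⟨l, D, b, c, a', b', hb, h⟩ := H672.rec_zones hC0 N R
    refine ⟨l, D, fun α _ A m => ?_⟩
    obtain ⟨e, he, he2⟩ := hC α (fun L => SH 1 L) Slow.cls_SH A b c a' b' _ _ hb
      {g | l ≤ g.length ∧ (∃ s : List α, s <:+: g ∧ s.length = C ∧ Mark.Free N s) ∧
        H672.NP D g ∧ ∀ a, H742.Rec a (R a) g}
      (fun g hg => h α g hg.1 hg.2.1 hg.2.2.1 hg.2.2.2) m
    refine ⟨e, he, ?_⟩
    rw [he2]
    ext w
    constructor
    · rintro ⟨h1, h2⟩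
      refine ⟨h1, fun u hu hm => ?_⟩
      obtain ⟨g, hg, hgu⟩ := h2 u hu hm
      exact ⟨g, hgu, hg⟩
    · rintro ⟨h1, h2⟩
      refine ⟨h1, fun u hu hm => ?_⟩
      obtain ⟨g, hgu, hg⟩ := h2 u hu hm
      exact ⟨g, hg, hgu⟩
  · intro α _
    cases nonempty_fintype α
    obtain ⟨K, hK, h⟩ := H672.ZR_of_ZL (α := α) C N hC0
    refine ⟨K, hK, fun A b τ hb m => ?_⟩
    obtain ⟨b₁, c, a', b', τ₁, τ₂, hb₁, h1⟩ := h b hb τ
    obtain ⟨e, he, he2⟩ := hC α (fun L => SH 1 L) Slow.cls_SH A b₁ c a' b' τ₁ τ₂ hb₁
      {g | H672.ZL K N b τ g} h1 m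
    refine ⟨e, he, ?_⟩
    rw [he2]
    ext w
    constructor
    · rintro ⟨h1, h2⟩
      refine ⟨h1, fun u hu hm => ?_⟩
      obtain ⟨_, ⟨P, X, Q, rfl, hg⟩, hgu⟩ := h2 u hu hm
      exact ⟨P, X, Q, hgu, hg⟩
    · rintro ⟨h1, h2⟩
      refine ⟨h1, fun u hu hm => ?_⟩
      obtain ⟨P, X, Q, hgu, hg⟩ := h2 u hu hm
      exact ⟨_, ⟨P, X, Q, rfl, hg⟩, hgu⟩
  · intro α _
    exact H672.cover_zones (α := α) C N hC0

end Vale.Agent.Results.P329.RecurrentZones
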