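import Vale.Agent.P329.H81.ActC

namespace Vale.Agent.Results.P329.TwoLetters

open Vale.Agent.P329 Vale.Agent.P329.H647 Vale.Agent.P329.H112 Vale.Agent.P329.H96
open Vale.Agent.P329.H81 (SmallFor ActFor)

/-- `HeightLe h L`: the language `L` has generalized star height at most `h`. `MapLe h φ`: all
languages recognised through the map `φ` of the letters to a monoid have generalized star height
at most `h`. A component of an automaton is a strongly connected component.
(1) Over an alphabet with at most two letters, a deterministic automaton all of whose components
have at most `n + 4` states accepts a language of height at most `n + 1`; in particular all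
automata with four states over two letters have height at most one.
(2) Over any finite alphabet: if each component `C` of a deterministic automaton is small
(`SmallFor`) or has abelian symmetries (`ActFor`), the accepted language has height at most one.
Small: (a) `C` has any number of states
and there is a map `f` such that each letter, where it does not lead out of `C`, acts as `f`, as the
identity, or has at most two values; (b) `C` has any number of states and abelian resets
(`SymFor`): each letter, where it does not lead out of `C`, acts as a power of one map `f` (the
powers are zero or one, or the powers of `f` have a prime period from some point on), or it is a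
reset letter with values numbered by a finite abelian group `A`, such that for all reset letters
`b`, `c` and all `i` the map which takes a value of `b`, applies `f` `i` times and then the letter
`c` is, where it stays in `C`, a translation of `A` or constant; (c) there are two maps `f`, `g`
such that each letter, where it does not lead out of `C`, acts as `f`, as `g`, as the identity, or
has at most one value, and: `C` has at most four states, or `C` has five states and `f`, `g` are
permutations of `C` each with at most one nontrivial cycle, or `f`, `g` are invertible affine maps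
`m x + s` of the field with five elements in some common coordinate of `C`; (d) `C` has at most
three states; or `C` has four states and all letters which map `C` into `C` have fibres of equal
size. Abelian symmetries: `C` has any number of states, a finite abelian group acts on `C` and
commutes with the letters where they do not lead out of `C` and with a map `f`, and each letter,
where it does not lead out of `C`, acts on the orbits as the identity, as `f`, as a constant or, if
`f` permutes `C`, as the inverse of `f`.
(3) Finitely many automata for which the languages of all words leading from one state to another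
have height at most one (for instance those of (2), (6) and (7)), and a map `F` of the letters to
finitely many finite groups, each in the class `DividesProduct` or with the letters in `A`, `g A`,
`g⁻¹ A` for an abelian normal subgroup `A`: if the value `φ v` in a finite monoid is aperiodic for
all nonempty words `v` with `F v = 1` which are idempotent on all these automata, then all languages
recognised through `φ` have height at most one.
(4) If the letters act on five points as the identity or as one of two cycles (of any lengths), all
languages recognised through the symmetric group of degree five in this way have height at most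
one.
(5) The same for the identity and two elements of the affine group of order twenty of the field
with five elements; in particular all languages over two letters recognised by this group.
(6) Let a finite abelian group act on the states of a deterministic automaton so that the letters
and a map `f` commute with the action. If each letter acts on the orbits as the identity, as `f`, as
a constant or, if `f` is a permutation, as the inverse of `f`, then the accepted language has height
at most one.
(7) In particular, for a finite abelian group `G` and an automaton `Y` of any size whose letters act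
as the identity, as one map `f`, as constants or, if `f` is a permutation, as the inverse of `f`,
all languages recognised by the wreath product of `G` and `Y` have height at most one: the run of
`Y` together with the sum in `G` of arbitrary weights of its transitions.
(8) Let `b`, `c` be letters not in the set `I` of letters and let an automaton with the states `q0`,
`q` be clean off `q0`: each word `v` over `I` such that some power `v ^ n`, `n > 0`, fixes a state
`s` without passing `q0` fixes `s`. Then the number of factors `b x c` of a word, where `x` is a
word over `I` which leads from `q0` to `q`, counted modulo any `n`, has height at most one.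
(9) In particular for the factors `b x c` where `x` is a word over `I` and the sum of the weights
of its letters is `r` modulo `m`, if the weights are zero or one or if `m` is a prime. -/
theorem result :
    (∀ (n : ℕ) (α σ : Type) [Finite α] [Finite σ] (A : DFA α σ), Nat.card α ≤ 2 →
      (∀ q : σ, {r : σ | (∃ u, A.evalFrom q u = r) ∧ ∃ v, A.evalFrom r v = q}.ncard ≤ n + 4) →
        HeightLe (n + 1) {w : List α | w ∈ A.accepts}) ∧
    (∀ (α σ : Type) [Finite α] [Finite σ] (A : DFA α σ),
      (∀ q : σ, SmallFor A.step {r : σ | (∃ u, A.evalFrom q u = r) ∧ ∃ v, A.evalFrom r v = q} ∨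
        ActFor A.step {r : σ | (∃ u, A.evalFrom q u = r) ∧ ∃ v, A.evalFrom r v = q}) →
          HeightLe 1 {w : List α | w ∈ A.accepts}) ∧
    (∀ (α ι κ : Type) [Finite α] [Finite ι] [Finite κ] (X : ι → Type) [∀ i, Finite (X i)]
      (δ : ∀ i, X i → α → X i), (∀ i, ReachLe 1 (δ i)) →
      ∀ (H : κ → Type) [∀ k, Group (H k)] [∀ k, Finite (H k)] (F : α → ∀ k, H k),
      (∀ k, DividesProduct (H k) ∨ ∃ (A : Subgroup (H k)) (g : H k), A.Normal ∧
        (∀ a ∈ A, ∀ b ∈ A, a * b = b * a) ∧
          ∀ x, F x k ∈ A ∨ g⁻¹ * F x k ∈ A ∨ g * F x k ∈ A) →
      ∀ (M : Type) [Monoid M] [Finite M] (φ : α → M),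
        (∀ v : List α, v ≠ [] → (v.map F).prod = 1 →
          (∀ i x, v.foldl (δ i) (v.foldl (δ i) x) = v.foldl (δ i) x) →
            ∃ k, (v.map φ).prod ^ (k + 1) = (v.map φ).prod ^ k) → MapLe 1 φ) ∧
    (∀ (α : Type) [Finite α] (F : α → Equiv.Perm (Fin 5)) (g h : Equiv.Perm (Fin 5)),
      g.IsCycle → h.IsCycle → (∀ a, F a = 1 ∨ F a = g ∨ F a = h) → MapLe 1 F) ∧
    (∀ (α : Type) [Finite α] (F : α → Equiv.Perm (ZMod 5)) (g h : Equiv.Perm (ZMod 5)),
      (∃ m s : ZMod 5, ∀ x, g x = m * x + s) → (∃ m s : ZMod 5, ∀ x, h x = m * x + s) →
        (∀ a, F a = 1 ∨ F a = g ∨ F a = h) → MapLe 1 F) ∧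
    (∀ (α σ G : Type) [Finite α] [Finite σ] [AddCommGroup G] [Finite G] [AddAction G σ]
      (A : DFA α σ) (f : σ → σ),
      (∀ (g : G) (x : σ) (a : α), A.step (g +ᵥ x) a = g +ᵥ A.step x a) →
      (∀ (g : G) (x : σ), f (g +ᵥ x) = g +ᵥ f x) →
      (∀ a, (∀ x, ∃ g : G, A.step x a = g +ᵥ x) ∨ (∀ x, ∃ g : G, A.step x a = g +ᵥ f x) ∨
        (∃ y : σ, ∀ x, ∃ g : G, A.step x a = g +ᵥ y) ∨
          (Function.Injective f ∧ ∀ x, ∃ g : G, f (A.step x a) = g +ᵥ x)) →
      HeightLe 1 {w : List α | w ∈ A.accepts}) ∧
    (∀ (α Y G : Type) [Finite α] [Finite Y] [AddCommGroup G] [Finite G] (δ : Y → α → Y)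
      (f : Y → Y),
      (∀ a, (∀ y, δ y a = y) ∨ (∀ y, δ y a = f y) ∨ (∃ z, ∀ y, δ y a = z) ∨
        (Function.Injective f ∧ ∀ y, f (δ y a) = y)) →
      ∀ s : Y → α → G, ReachLe 1 fun (x : Y × G) a => (δ x.1 a, x.2 + s x.1 a)) ∧
    (∀ (α Q : Type) [Finite α] [Finite Q] (I : Set α) (b c : α), b ∉ I → c ∉ I →
      ∀ (δ : Q → α → Q) (q0 q : Q),
      (∀ (v : List α) (s : Q) (n : ℕ), (∀ a ∈ v, a ∈ I) → 0 < n →
        (∀ p, p <+: (List.replicate n v).flatten → p ≠ [] → p.foldl δ s ≠ q0) →
          (List.replicate n v).flatten.foldl δ s = s → v.foldl δ s = s) →
      ∀ n k : ℕ, 0 < n → HeightLe 1 {w : List α | {u : List α | ∃ x v,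
        u ++ b :: (x ++ c :: v) = w ∧ (∀ a ∈ x, a ∈ I) ∧ x.foldl δ q0 = q}.ncard % n = k}) ∧
    (∀ (α : Type) [Finite α] (I : Set α) (b c : α), b ∉ I → c ∉ I → ∀ m : ℕ, 0 < m →
      ∀ wt : α → ℕ, ((∀ a ∈ I, wt a ≤ 1) ∨ m.Prime) → ∀ r n k : ℕ, 0 < n →
      HeightLe 1 {w : List α | {u : List α | ∃ x v, u ++ b :: (x ++ c :: v) = w ∧
        (∀ a ∈ x, a ∈ I) ∧ (x.map wt).sum % m = r}.ncard % n = k}) :=
  ⟨fun n _ _ _ _ A hα hX => H81.dfa_height A fun p q => H81.two_comp hα n A.step (fun p => hX p) p q,
    fun _ _ _ _ A hX => H81.dfa_height A fun p q => H81.small_act A.step (fun p => hX p) p q,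
    fun _ _ _ _ _ _ X _ δ hδ H _ _ F hH M _ _ φ hφ => H81.over_reach X δ hδ H F hH M φ hφ,
    fun _ _ F g h hg hh hF => H81.perm_cyc F g h hg hh hF,
    fun _ _ F g h hg hh hF => H81.perm_aff F g h hg hh hF,
    fun _ _ G _ _ _ _ _ A f h1 h2 h3 => H81.dfa_height A fun p q =>
      H81.sym_all (A := G) A.step h1 f h2 h3 p q,
    fun _ _ _ _ _ _ _ δ f h s p q => H81.wreath_all δ f h s p q,
    fun _ _ _ _ I b c hb hc δ q0 q hcl n k hn => H81.count_fac I b c hb hc δ q0 q hcl n k hn,
    fun _ _ I b c hb hc m hm wt hwt r n k hn => H81.count_wt I b c hb hc m hm wt hwt r n k hn⟩

end Vale.Agent.Results.P329.TwoLetters
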