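import Vale.Agent.P329.H954.Fin2

namespace Vale.Agent.Results.P329.WindowedSThree

open Vale.Agent.P329 Vale.Agent.P329.H112 Vale.Agent.P329.H559 Vale.Agent.P329.H954.Del.Var

/-- `CtxClass n G`: `n` is positive, and `G` divides a finite direct product of finite groups, each
of which is abelian, or (if `n` is a power of a prime `p`) a `p`-group, or (if `n = 1`) nilpotent,
or (if `n` is `1` or a power of two) nilpotent of class at most two or the symmetric group on three
points. For all finite alphabets:
(1) Products in a group `G` of the class, where the factor of a position depends on the letter, on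
the `c` letters before it and on the position modulo `n`: the words whose product lies in a given
set, and the words whose annotated word (value of the prefix, letter) lies in a given star-free
language, form languages of generalized star height at most one.
(2) Languages recognised by Rees matrix semigroups with zero over a group `G` with `CtxClass 1 G`,
in particular over the symmetric group on three points, have generalized star height at most one.
(3) So have the languages accepted by finite automata, with any number of states, in which each
strongly connected component `C` has at most three states, or four states and all letters mapping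
`C` into `C` have fibres of equal size there, or is `Valued`: for some `c`, each word `v` of at
least `c` letters, none of which is the identity on `C` where it does not lead out of `C`, with a
nontrivial cycle in `C`, has as many values in `C` as the word of its last `c` letters, and at most
three values, or the group of permutations of these values induced by words is in `CtxClass 1`.
(4) Let finitely many automata as in (3), a map `F` of the letters to finitely many finite groups,
each in `DividesProduct`, `ClassTwoByTwo` or `CentralSquares`, or with all letters in `A`, `g A` or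
`g⁻¹ A` for an abelian normal subgroup `A`, and finitely many products as in (1) be given. Languages
recognised by a finite monoid through `φ` have generalized star height at most one if `φ v` is
aperiodic for all nonempty words `v` with `F v = 1` which are idempotent on the automata and whose
second reading changes neither the positions modulo `n j` nor the last `c j` letters nor the
products. -/
theorem result :
    (∀ (α : Type) [Finite α] (n : ℕ) (G : Type) [Group G], CtxClass n G →
      ∀ (c : ℕ) (ψ : ZMod n → List α → α → G),
        (∀ S : Set G, HeightLeOne {w : List α | ctxProdN n c ψ w ∈ S}) ∧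
        (∀ e : GRE (G × α), e.height = 0 →
          HeightLeOne {w : List α |
            (w.zipIdx.map fun x => (ctxProdN n c ψ (w.take x.2), x.1)) ∈ e.lang})) ∧
    (∀ (α : Type) [Finite α] (G I Λ : Type) [Group G] [Finite I] [Finite Λ], CtxClass 1 G →
      ∀ (P : Λ → I → Option G) (f : α → Option (I × G × Λ)) (S : Set (Option (I × G × Λ))),
        HeightLeOne {w : List α | ∃ a u, w = a :: u ∧ (u.map f).foldl (reesMul P) (f a) ∈ S}) ∧
    (∀ (α σ : Type) [Finite α] [Finite σ] (A : DFA α σ),
      (∀ q : σ, SmallOrValued A.step
        {r : σ | (∃ u, A.evalFrom q u = r) ∧ ∃ v, A.evalFrom r v = q}) →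
      HeightLeOne {w : List α | w ∈ A.accepts}) ∧
    (∀ (α ι κ θ : Type) [Finite α] [Finite ι] [Finite κ] [Finite θ] (X : ι → Type)
      [∀ i, Finite (X i)] (δ : ∀ i, X i → α → X i),
      (∀ i (q : X i), SmallOrValued (δ i)
        {r : X i | (∃ u : List α, u.foldl (δ i) q = r) ∧ ∃ v : List α, v.foldl (δ i) r = q}) →
      ∀ (H : κ → Type) [∀ k, Group (H k)] [∀ k, Finite (H k)] (F : α → ∀ k, H k),
      (∀ k, DividesProduct (H k) ∨ H697.ClassTwoByTwo (H k) ∨ H697.CentralSquares (H k) ∨
        ∃ (A : Subgroup (H k)) (g : H k), A.Normal ∧ (∀ a ∈ A, ∀ b ∈ A, a * b = b * a) ∧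
          ∀ x, F x k ∈ A ∨ g⁻¹ * F x k ∈ A ∨ g * F x k ∈ A) →
      ∀ (K : θ → Type) [∀ j, Group (K j)] (n : θ → ℕ), (∀ j, CtxClass (n j) (K j)) →
      ∀ (c : θ → ℕ) (ψ : ∀ j, ZMod (n j) → List α → α → K j)
        (M : Type) [Monoid M] [Finite M] (φ : α → M),
        (∀ v : List α, v ≠ [] → (v.map F).prod = 1 →
          (∀ i x, v.foldl (δ i) (v.foldl (δ i) x) = v.foldl (δ i) x) →
          (∀ j, n j ∣ v.length ∧ c j ≤ v.length ∧ ∀ u : List α,
            ctxProdN (n j) (c j) (ψ j) (u ++ v ++ v) = ctxProdN (n j) (c j) (ψ j) (u ++ v)) →
          ∃ k, (v.map φ).prod ^ (k + 1) = (v.map φ).prod ^ k) →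
        ∀ S : Set M, HeightLeOne {w : List α | (w.map φ).prod ∈ S}) := by
  refine ⟨fun _ _ _ _ _ hG c ψ => class_ctx hG c ψ,
    fun _ _ _ _ _ _ _ _ hG P f S => class_rees hG P f S, ?_, ?_⟩
  · intro α σ _ _ A hA
    exact H954.dfa_height A fun p q => basic_sh (fun p => hA p) p q
  · intro α ι κ θ _ _ _ _ X _ δ hδ H _ _ F hH K _ n hn c ψ M _ _ φ hφ
    exact closure X δ hδ H F hH K n hn c ψ M φ hφ

end Vale.Agent.Results.P329.WindowedSThree
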